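import Crest.Agent.R182.B.PM

/-! R182/CMP/A: box algebra for the comparison lemmas (owner helper47). -/

set_option autoImplicit false
set_option linter.unusedVariables false
set_option linter.unusedSectionVars false
open Set Filter Topology MeasureTheory ProbabilityTheory Matrix Crest.GroupTheory
open scoped Pointwise commutatorElement ENNReal

noncomputable section
namespace Crest.Agent.R182

namespace Model
variable {h k : ℕ} (M : Model h k)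

/-- boxes of `exp U` -/
def Sx (U : Submodule ℝ (V h)) (a ρ : ℝ) : Set M.G := M.exp '' (U ∩ Real.exp a • M.Gv ρ)

theorem Sx_mono (U : Submodule ℝ (V h)) {a a' ρ ρ' : ℝ} (ha : a ≤ a') (hρ : ρ ≤ ρ') : M.Sx U a ρ ⊆ M.Sx U a' ρ' := by
  refine image_mono (inter_subset_inter_right _ fun X hX => ?_)
  exact Core.In.mono (M.star_EV ρ') (smul_set_mono (M.Gv_mono hρ) hX) (Real.exp_pos a).le (Real.exp_le_exp.2 ha)
theorem Sx_zero (U : Submodule ℝ (V h)) (ρ : ℝ) : M.Sx U 0 ρ = M.exp '' (U ∩ M.Gv ρ) := by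
  rw [Sx, Real.exp_zero, one_smul]
theorem one_mem_Sx (U : Submodule ℝ (V h)) (a ρ : ℝ) : (1 : M.G) ∈ M.Sx U a ρ := by
  exact ⟨0, ⟨U.zero_mem, Core.In.zero (M.star_EV ρ)⟩, M.exp_zero⟩
theorem inv_mem_Sx {U : Submodule ℝ (V h)} {a ρ : ℝ} {x : M.G} (hx : x ∈ M.Sx U a ρ) : x⁻¹ ∈ M.Sx U a ρ := by
  obtain ⟨X, hX, rfl⟩ := hx
  exact ⟨-X, ⟨U.neg_mem hX.1, Core.In.neg (M.star_EV ρ) hX.2⟩, M.exp_neg X⟩
theorem Sx_subset {U : Submodule ℝ (V h)} (a ρ : ℝ) : M.Sx U a ρ ⊆ M.exp '' U := by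
  exact image_mono inter_subset_left
theorem measurableSet_Sx (U : Submodule ℝ (V h)) (a ρ : ℝ) : MeasurableSet (M.Sx U a ρ) := by
  exact ((((M.isCompact_Gv ρ).smul _).inter_left U.closed_of_finiteDimensional).image M.continuous_exp).measurableSet
/-- `exists_In_mul` with `T = r = exp a`, `IsSub.bch_mem` -/
theorem Sx_mul : ∃ B : ℝ, 1 ≤ B ∧ ∀ U, M.IsSub U → ∀ a ρ : ℝ, 1 ≤ a → ∀ x ∈ M.Sx U a ρ, ∀ y ∈ M.Sx U a ρ, x * y ∈ M.Sx U (B * a) ρ := by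
  obtain ⟨D, n, hD, h₁⟩ := M.exists_In_mul
  refine ⟨2 * D + n + 1, by have := Nat.cast_nonneg (α := ℝ) n; linarith, ?_⟩
  rintro U hU a ρ ha _ ⟨X, hX, rfl⟩ _ ⟨Y, hY, rfl⟩
  have h0 := Real.exp_pos a
  have h1 : 1 ≤ Real.exp a := Real.one_le_exp (by linarith)
  have h2 := Core.In.add hX.2 (h₁ _ (M.star_EV ρ) 1 _ _ X Y h1 h0.le le_rfl hX.2 hY.2).1 h0.le (by positivity)
  rw [add_sub_cancel] at h2
  refine ⟨M.bch X Y, ⟨Core.IsSub.bch_mem _ hU hX.1 hY.1, h2.mono (M.star_EV ρ) (by positivity) ?_⟩, (M.exp_bch X Y).symm⟩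
  have h3 : 1 ≤ D * Real.exp a ^ n := one_le_mul_of_one_le_of_one_le hD (one_le_pow₀ h1)
  have h4 : 2 * D ≤ Real.exp (2 * D * a) := by nlinarith [Real.add_one_le_exp (2 * D * a)]
  calc Real.exp a + D * Real.exp a ^ n * Real.exp a ≤ 2 * D * Real.exp a ^ n * Real.exp a := by nlinarith
    _ ≤ Real.exp (2 * D * a) * Real.exp a ^ n * Real.exp a := by gcongr
    _ = _ := by rw [← Real.exp_nat_mul, ← Real.exp_add, ← Real.exp_add]; congr 1; ring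
/-- `In.trans` for `f = Ad b` (`Qb_calc`, `Ad_E`: `Ad b (EV ρ) ⊆ exp (B a) • EV ρ`) -/
theorem Sx_conj : ∃ B : ℝ, 1 ≤ B ∧ ∀ U, M.GI U → ∀ a ρ : ℝ, 1 ≤ a → ∀ b ∈ M.Qb a, ∀ x ∈ M.Sx U a ρ, b * x * b⁻¹ ∈ M.Sx U (B * a) ρ := by
  obtain ⟨B, hB, h₁⟩ := M.Qb_calc
  refine ⟨1 + M.cl * (M.cl + B), le_add_of_nonneg_right (by positivity), ?_⟩
  rintro U hU a ρ ha b hb _ ⟨X, hX, rfl⟩
  have h0 := Real.exp_pos (B * a)
  have h2 := Core.In.trans (M.star_EV ρ) (M.Ad_br b) (Real.one_le_exp (x := B * a) (by positivity)) (fun v hv => by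
    have := (Core.In.of_gen (c := M.toCore) (𝒱 := M.EV ρ) (X := (Real.exp (B * a))⁻¹ • M.Ad b v)
      ⟨M.E.smul_mem _ (M.Ad_E b hv.1), by
        rw [norm_smul, norm_inv, Real.norm_of_nonneg h0.le, inv_mul_le_iff₀ h0]
        exact ((h₁ a ha).2.2.2 b hb v).trans (mul_le_mul_of_nonneg_left hv.2 h0.le)⟩).smul (Real.exp (B * a))
    rwa [mul_one, smul_inv_smul₀ h0.ne'] at this) hX.2
  refine ⟨M.Ad b X, ⟨hU.Ad b X hX.1, h2.mono (M.star_EV ρ) (by positivity) ?_⟩, (M.conj b X).symm⟩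
  have h3 : 2 ≤ Real.exp a := by linarith [Real.add_one_le_exp a]
  calc Real.exp a * (2 ^ M.cl * Real.exp (B * a)) ^ M.cl ≤ Real.exp a * (Real.exp a ^ M.cl * Real.exp (B * a)) ^ M.cl := by gcongr
    _ = _ := by rw [← Real.exp_nat_mul, ← Real.exp_add, ← Real.exp_nat_mul, ← Real.exp_add]; congr 1; ring
/-- `mem_expSub`, `exp_mem_Qb`, `EV_subset_Gv` -/
theorem mem_Sx_of_Qb {U : Submodule ℝ (V h)} (hU : M.GI U) {ρ : ℝ} (hρ : 0 ≤ ρ) {m : M.G} (hm : m ∈ M.expSub U) (hq : m ∈ M.Qb ρ) :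
    m ∈ M.Sx U 0 ρ := by
  obtain ⟨X, hX, rfl⟩ := (M.mem_expSub (Core.IsIdl.isSub _ hU.idl)).1 hm
  refine ⟨X, ⟨hX, ?_⟩, rfl⟩
  rw [Real.exp_zero, one_smul]
  exact M.EV_subset_Gv ρ ⟨hU.le hX, (M.exp_mem_Qb hρ).1 hq⟩
theorem unit_subset_Sx {U : Submodule ℝ (V h)} (hU : U ≤ M.E) {ρ : ℝ} (hρ : 0 ≤ ρ) :
    M.exp '' (U ∩ Metric.closedBall 0 1) ⊆ M.Sx U 0 ρ := by
  refine image_mono fun X hX => ⟨hX.1, ?_⟩
  rw [Real.exp_zero, one_smul]
  exact M.EV_subset_Gv ρ ⟨hU hX.1, (mem_closedBall_zero_iff.1 hX.2).trans (Real.one_le_exp hρ)⟩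
theorem hV_Gv_ne_zero {U : Submodule ℝ (V h)} (hU : U ≤ M.E) (ρ : ℝ) : hV U (M.Gv ρ) ≠ 0 := by
  have h1 := lebU_ball_pos U (Real.exp_pos ρ)
  rw [← lebU_inter] at h1
  exact (h1.trans_le (measure_mono fun X hX => M.EV_subset_Gv ρ ⟨hU hX.2, mem_closedBall_zero_iff.1 hX.1⟩)).ne'
theorem hV_Gv_ne_top (U : Submodule ℝ (V h)) (ρ : ℝ) : hV U (M.Gv ρ) ≠ ∞ := by
  exact (M.isCompact_Gv ρ).measure_lt_top.ne
/-- `hm_exp`, `lebU_inter`, `hV_smul`, `finrank U ≤ h` -/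
theorem hm_Sx_le (U : Submodule ℝ (V h)) {a : ℝ} (ha : 0 ≤ a) (ρ : ℝ) :
    M.hm U (M.Sx U a ρ) ≤ ENNReal.ofReal (Real.exp (h * a)) * hV U (M.Gv ρ) := by
  rw [Sx, M.hm_exp, inter_comm, lebU_inter]
  refine (hV_smul U (Real.exp_pos a) _).trans_le (mul_le_mul_left (ENNReal.ofReal_le_ofReal ?_) _)
  rw [Real.exp_nat_mul]
  exact pow_le_pow_right₀ (Real.one_le_exp ha) (U.finrank_le.trans (by simp))
theorem cac_key : ∃ B : ℝ, 1 ≤ B ∧ ∀ a : ℝ, 1 ≤ a → ∀ A : Set M.G,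
    volume (A * M.Qb a * M.ballR 1) ≤ ENNReal.ofReal (Real.exp (B * a)) * volume (A * M.ballR 1) := by
  obtain ⟨B, hB, H⟩ := M.Qb_calc
  obtain ⟨B₁, hB₁, H₁⟩ := M.vol_mul_Qb
  refine ⟨B₁ * (B * B), one_le_mul_of_one_le_of_one_le hB₁ (one_le_mul_of_one_le_of_one_le hB hB), fun a ha A => ?_⟩
  have h1 : a ≤ B * a := le_mul_of_one_le_left (by linarith) hB
  have h2 : 1 ≤ B * (B * a) := one_le_mul_of_one_le_of_one_le hB (ha.trans h1)
  have h3 : M.Qb a * M.ballR 1 ⊆ M.Qb (B * (B * a)) := by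
    rintro _ ⟨x, hx, y, hy, rfl⟩
    exact (H _ (ha.trans h1)).1 x (M.Qb_mono h1 hx) y
      (M.Qb_mono (mul_le_mul_of_nonneg_left ha (by linarith)) ((H 1 le_rfl).2.2.1 hy))
  rw [mul_assoc A, show B₁ * (B * B) * a = B₁ * (B * (B * a)) by ring]
  exact (measure_mono (Set.mul_subset_mul_left h3)).trans (H₁ _ h2 A)
theorem cac_left (y : M.G) (S : Set M.G) : volume ({y} * S) = volume S := by
  rw [Set.singleton_mul, Set.image_mul_left, measure_preimage_mul]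
omit M in
theorem cac_exp {B B' a : ℝ} (hB' : 1 ≤ B') (ha : 1 ≤ a) :
    ENNReal.ofReal (Real.exp (B * a)) * ENNReal.ofReal B' ≤ ENNReal.ofReal (Real.exp ((B + B') * a)) := by
  rw [← ENNReal.ofReal_mul (Real.exp_pos _).le, add_mul, Real.exp_add]
  refine ENNReal.ofReal_le_ofReal (mul_le_mul_of_nonneg_left ?_ (Real.exp_pos _).le)
  have := Real.add_one_le_exp (B' * a)
  nlinarith

/-- `Qb a * ballR 1 ⊆ Qb (B a)`, `vol_mul_Qb`, `vol_le_hmR` -/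
theorem vol_Qb_le_hm {U : Submodule ℝ (V h)} (hU : M.IsSub U) : ∃ B : ℝ, 1 ≤ B ∧ ∀ a : ℝ, 1 ≤ a → ∀ (y : M.G), ∀ P ⊆ M.exp '' U,
    volume ({y} * P * M.Qb a * M.ballR 1) ≤
      ENNReal.ofReal (Real.exp (B * a)) * M.hm U (P * M.exp '' (U ∩ Metric.closedBall 0 1)) := by
  obtain ⟨B, hB, H⟩ := M.cac_key
  obtain ⟨B', hB', H'⟩ := M.vol_le_hmR hU
  refine ⟨B + B', by linarith, fun a ha y P hP => ?_⟩
  rw [mul_assoc ({y} : Set M.G), mul_assoc ({y} : Set M.G), M.cac_left]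
  refine (H a ha P).trans ((mul_le_mul_right (H' P hP) _).trans ?_)
  rw [← mul_assoc]
  exact mul_le_mul_left (cac_exp hB' ha) _
/-- `hm_le_volR`, left invariance, `Qb_calc`, `vol_mul_Qb` -/
theorem hm_le_vol_Qb {U : Submodule ℝ (V h)} (hU : M.IsSub U) : ∃ B : ℝ, 1 ≤ B ∧ ∀ a : ℝ, 1 ≤ a → ∀ (y : M.G) (Z Y : Set M.G),
    {y} * Z ⊆ Y * M.Qb a → M.hm U Z ≤ ENNReal.ofReal (Real.exp (B * a)) * volume (Y * M.ballR 1) := by
  obtain ⟨B, hB, H⟩ := M.cac_key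
  obtain ⟨B', hB', H'⟩ := M.hm_le_volR hU
  refine ⟨B + B', by linarith, fun a ha y Z Y hZ => (H' Z).trans ?_⟩
  rw [← M.cac_left y, ← mul_assoc]
  refine (mul_le_mul_right ((measure_mono (Set.mul_subset_mul_right hZ)).trans (H a ha Y)) _).trans ?_
  rw [← mul_assoc, mul_comm (ENNReal.ofReal B')]
  exact mul_le_mul_left (cac_exp hB' ha) _
theorem abs_rb_le (U : Submodule ℝ (V h)) : ∃ B : ℝ, 1 ≤ B ∧ ∀ a : ℝ, ∀ b ∈ M.Qb a, |M.rb U ⬝ᵥ M.chi b| ≤ B * a := by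
  have h0 : 0 ≤ nm (M.rb U) * k := mul_nonneg (nm_nonneg _) (Nat.cast_nonneg _)
  refine ⟨nm (M.rb U) * k + 1, by linarith, fun a b hb => (abs_dot_le _ _).trans ?_⟩
  rw [← mul_assoc]
  exact mul_le_mul (by linarith) hb.2 (norm_nonneg _) (by linarith)
/-- a finite union of left translates -/
theorem hm_finset_mul_le {U : Submodule ℝ (V h)} (hU : M.IsSub U) {F : Finset M.G} (hF : ↑F ⊆ M.exp '' U) (S : Set M.G) :
    M.hm U (↑F * S) ≤ F.card * M.hm U S := by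
  rw [← Set.iUnion_mul_left_image, ← nsmul_eq_mul, ← Finset.sum_const]
  exact (measure_biUnion_finset_le F _).trans
    (Finset.sum_le_sum fun x hx => (M.hm_image_left hU ((M.mem_expSub hU).2 (hF hx)) S).le)

omit M in
/-- Vitali: a family of maximal cardinality (`Nat.find`/`Nat.sSup_mem`) -/
theorem _root_.Crest.Agent.R182.exists_vitali {G : Type*} [Group G] (A T : Set G) (m : G → G) (hT : (1 : G) ∈ T) (N : ℕ)
    (hN : ∀ F : Finset G, ↑F ⊆ A → (F : Set G).PairwiseDisjoint (fun x => {m x} * T) → F.card ≤ N) :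
    ∃ F : Finset G, ↑F ⊆ A ∧ (F : Set G).PairwiseDisjoint (fun x => {m x} * T) ∧
      ∀ x ∈ A, ∃ y ∈ F, ∃ t ∈ T, ∃ t' ∈ T, m x = m y * t * t'⁻¹ := by
  classical
  let S : Set ℕ := {n | ∃ F : Finset G, ↑F ⊆ A ∧ (F : Set G).PairwiseDisjoint (fun x => {m x} * T) ∧ F.card = n}
  have hb : BddAbove S := ⟨N, fun n ⟨F, h1, h2, h3⟩ => h3 ▸ hN F h1 h2⟩
  obtain ⟨F, h1, h2, h3⟩ : sSup S ∈ S := Nat.sSup_mem ⟨0, ∅, by simp, by simp, rfl⟩ hb
  refine ⟨F, h1, h2, fun x hx => ?_⟩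
  by_contra hc
  have hxF : x ∉ F := fun hF => hc ⟨x, hF, 1, hT, 1, hT, by simp⟩
  have hd : ∀ y ∈ (F : Set G), Disjoint ({m x} * T) ({m y} * T) := fun y hy => by
    rw [Set.disjoint_left]
    rintro _ ⟨_, rfl, t', ht', rfl⟩ ⟨_, rfl, t, ht, e⟩
    exact hc ⟨y, hy, t, ht, t', ht', eq_mul_inv_of_mul_eq e.symm⟩
  have h4 : F.card + 1 ≤ sSup S := le_csSup hb ⟨insert x F, by
    rw [Finset.coe_insert]; exact Set.insert_subset hx h1, by
    rw [Finset.coe_insert]; exact h2.insert fun y hy _ => hd y hy, Finset.card_insert_of_notMem hxF⟩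
  omega

/-- Slabs.  If `n = ⌊‖ℓ X0‖ exp (ρ - s) / 3⌋ ≥ 1` the translates of the slab by `(3 i exp s / ‖ℓ X0‖) • X0`, `i < n`, are disjoint measurable subsets of
`(exp a + 1) • Gv ρ` (`X0 ∈ W β ≤ E`, convexity); `hV_add`, `hV_smul`.  Otherwise the bound is trivial. -/
theorem slab_le {U : Submodule ℝ (V h)} {β : Fin k → ℝ} (A : M.Aff β) (h₁ : A.X0 ∈ U) : ∃ B : ℝ, 1 ≤ B ∧ ∀ (a s ρ : ℝ) (c : ℂ), 1 ≤ a →
    hV U {Z | Z ∈ Real.exp a • M.Gv ρ ∧ ‖A.ℓ Z - c‖ ≤ Real.exp s} ≤ ENNReal.ofReal (Real.exp (B * a + s - ρ)) * hV U (M.Gv ρ) := by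
  set L := ‖A.ℓ A.X0‖ with hL
  have hL0 : 0 < L := norm_pos_iff.2 A.X0_ne
  refine ⟨1 + 2 * h + |Real.log (3 / L)|, by linarith [abs_nonneg (Real.log (3 / L)), (Nat.cast_nonneg h : (0 : ℝ) ≤ h)],
    fun a s ρ c ha => ?_⟩
  set S := {Z | Z ∈ Real.exp a • M.Gv ρ ∧ ‖A.ℓ Z - c‖ ≤ Real.exp s} with hS
  set x := L * Real.exp (ρ - s) / 3 with hx
  have hx0 : 0 < x := by positivity
  have hs0 := Real.exp_pos s
  let t : ℕ → V h := fun i => (3 * i * Real.exp s / L) • A.X0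
  have hSm : MeasurableSet S := (((M.isCompact_Gv ρ).smul _).isClosed.inter
    (isClosed_le ((A.ℓ.continuous_of_finiteDimensional.sub continuous_const).norm) continuous_const)).measurableSet
  have hd : ((Finset.range (⌊x⌋₊ + 1) : Finset ℕ) : Set ℕ).PairwiseDisjoint fun i => t i +ᵥ S := by
    intro i _ j _ hij
    refine Set.disjoint_left.2 ?_
    rintro _ ⟨Z, hZ, rfl⟩ ⟨Z', hZ', e⟩
    have e1 : Z' - Z = (3 * ((i : ℝ) - j) * Real.exp s / L) • A.X0 := by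
      have e2 : t j + Z' = t i + Z := e
      rw [show Z' - Z = t i - t j by linear_combination (exp := 1) e2, ← sub_smul]
      congr 1
      ring
    have h1 : ‖A.ℓ (Z' - Z)‖ ≤ 2 * Real.exp s := by
      rw [map_sub, show A.ℓ Z' - A.ℓ Z = (A.ℓ Z' - c) - (A.ℓ Z - c) by ring]
      exact (norm_sub_le _ _).trans (by linarith [hZ.2, hZ'.2])
    have h2 : (1 : ℝ) ≤ |(i : ℝ) - j| := by
      have : (1 : ℤ) ≤ |(i : ℤ) - j| := Int.one_le_abs (by omega)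
      exact_mod_cast this
    rw [e1, map_smul, norm_smul, ← hL, Real.norm_eq_abs, abs_div, abs_of_pos hL0, div_mul_cancel₀ _ hL0.ne', abs_mul, abs_mul,
      abs_of_pos hs0, abs_of_pos (show (0 : ℝ) < 3 by norm_num)] at h1
    nlinarith
  have hsub : (⋃ i ∈ Finset.range (⌊x⌋₊ + 1), t i +ᵥ S) ⊆ (1 + Real.exp a) • M.Gv ρ := by
    refine iUnion₂_subset fun i hi => ?_
    rintro _ ⟨Z, hZ, rfl⟩
    have h1 : (i : ℝ) ≤ x := (Nat.le_floor_iff hx0.le).1 (Nat.lt_succ_iff.1 (Finset.mem_range.1 hi))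
    have h2 : t i ∈ M.EV ρ := by
      refine ⟨M.E.smul_mem _ (M.W_le_E A.ne A.X0_mem), ?_⟩
      rw [norm_smul, Real.norm_eq_abs, abs_of_nonneg (by positivity)]
      calc _ ≤ 3 * x * Real.exp s / L * 1 := by gcongr; exact A.X0_norm
        _ = Real.exp ρ := by rw [hx, Real.exp_sub]; field_simp
    exact Core.In.add (Core.In.of_gen h2) hZ.1 zero_le_one (Real.exp_pos a).le
  have h3 : ENNReal.ofReal x * hV U S ≤ ENNReal.ofReal (Real.exp (2 * h * a)) * hV U (M.Gv ρ) := by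
    calc _ ≤ ((⌊x⌋₊ + 1 : ℕ) : ℝ≥0∞) * hV U S := by
          rw [← ENNReal.ofReal_natCast]
          exact mul_le_mul_left (ENNReal.ofReal_le_ofReal (by push_cast; exact (Nat.lt_floor_add_one x).le)) _
      _ = ∑ i ∈ Finset.range (⌊x⌋₊ + 1), hV U (t i +ᵥ S) := by
          rw [Finset.sum_congr rfl fun i _ => hV_add U (U.smul_mem _ h₁) S, Finset.sum_const, Finset.card_range, nsmul_eq_mul]
      _ = hV U (⋃ i ∈ Finset.range (⌊x⌋₊ + 1), t i +ᵥ S) := (measure_biUnion_finset hd fun i _ => hSm.const_vadd _).symm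
      _ ≤ hV U ((1 + Real.exp a) • M.Gv ρ) := measure_mono hsub
      _ ≤ _ := by
          rw [hV_smul U (by positivity)]
          refine mul_le_mul_left (ENNReal.ofReal_le_ofReal ?_) _
          have h4 : Module.finrank ℝ U ≤ h := by simpa using U.finrank_le
          have h5 : 1 + Real.exp a ≤ Real.exp (2 * a) := by
            rw [two_mul, Real.exp_add]
            nlinarith [Real.add_one_le_exp a]
          calc _ ≤ (1 + Real.exp a) ^ h := pow_le_pow_right₀ (by linarith [Real.exp_pos a]) h4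
            _ ≤ Real.exp (2 * a) ^ h := by gcongr
            _ = _ := by rw [← Real.exp_nat_mul]; congr 1; ring
  calc hV U S = ENNReal.ofReal x⁻¹ * (ENNReal.ofReal x * hV U S) := by
        rw [← mul_assoc, ← ENNReal.ofReal_mul (by positivity), inv_mul_cancel₀ hx0.ne', ENNReal.ofReal_one, one_mul]
    _ ≤ ENNReal.ofReal x⁻¹ * (ENNReal.ofReal (Real.exp (2 * h * a)) * hV U (M.Gv ρ)) := mul_le_mul_right h3 _
    _ ≤ _ := by
        rw [← mul_assoc, ← ENNReal.ofReal_mul (by positivity)]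
        refine mul_le_mul_left (ENNReal.ofReal_le_ofReal ?_) _
        have h4 : x⁻¹ = Real.exp (Real.log (3 / L) + (s - ρ)) := by
          rw [Real.exp_add, Real.exp_log (by positivity), hx, Real.exp_sub, Real.exp_sub]
          field_simp
        rw [h4, ← Real.exp_add]
        refine Real.exp_le_exp.2 ?_
        nlinarith [le_abs_self (Real.log (3 / L)), abs_nonneg (Real.log (3 / L))]

/-- `bb` is bounded on `Qb`, and so is `lam` -/
theorem Aff.Qb_le {M : Model h k} {β : Fin k → ℝ} (A : M.Aff β) : ∃ B : ℝ, 1 ≤ B ∧ ∀ a : ℝ, 1 ≤ a → ∀ b ∈ M.Qb a,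
    ‖A.bb b‖ ≤ Real.exp (B * a) ∧ ‖(A.lam b : ℂ)‖ ≤ Real.exp (B * a) := by
  obtain ⟨C, hC, h1⟩ := (LinearMap.toContinuousLinearMap A.ℓ).bound
  have hβ : 0 ≤ ∑ i, |β i| := Finset.sum_nonneg fun i _ => abs_nonneg _
  refine ⟨1 + C + ∑ i, |β i|, by linarith, fun a ha b hb => ⟨?_, ?_⟩⟩
  · refine (h1 (M.lgm b)).trans ((mul_le_mul (show C ≤ Real.exp C by linarith [Real.add_one_le_exp C]) hb.1 (norm_nonneg _)
      (Real.exp_pos _).le).trans ?_)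
    rw [← Real.exp_add]
    exact Real.exp_le_exp.2 (by nlinarith)
  · rw [A.norm_lam]
    refine Real.exp_le_exp.2 (le_trans (b := (∑ i, |β i|) * a) ?_ (by nlinarith))
    rw [dotProduct, Finset.sum_mul]
    refine Finset.sum_le_sum fun i _ => (le_abs_self _).trans ?_
    rw [abs_mul]
    exact mul_le_mul_of_nonneg_left ((norm_le_pi_norm (M.chi b) i).trans hb.2) (abs_nonneg _)
theorem Aff.bb_exp_mul {M : Model h k} {β : Fin k → ℝ} (A : M.Aff β) (X : V h) (g : M.G) : A.bb (M.exp X * g) = A.ℓ X + A.bb g := by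
  rw [A.bb_mul, A.bb_exp, A.lam_congr (g' := 1) (by rw [← M.exp_zero, M.tv_exp, M.tv_exp]), map_one, Units.val_one, one_mul]

end Model

end Crest.Agent.R182
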