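import Crest.Agent.R182.CMP.A

/-! R182/CMP/Cov: the covering lemma (owner helper47). -/

set_option autoImplicit false
set_option linter.unusedVariables false
set_option linter.unusedSectionVars false
open Set Filter Topology MeasureTheory ProbabilityTheory Matrix Crest.GroupTheory
open scoped Pointwise commutatorElement ENNReal

noncomputable section
namespace Crest.Agent.R182

namespace Model
variable {h k : ℕ} (M : Model h k)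

omit M in
theorem cova_half {α : Type*} [MeasurableSpace α] {μ : Measure α} {S A : Set α} (hS : MeasurableSet S) (h0 : μ S ≠ 0)
    (h1 : μ S ≠ ∞) (hA : μ[|S] A ≤ 2⁻¹) : ∃ Z, MeasurableSet Z ∧ Z ⊆ S \ A ∧ μ S ≤ 2 * μ Z := by
  have hT := measurableSet_toMeasurable (μ[|S]) A
  refine ⟨S \ toMeasurable (μ[|S]) A, hS.diff hT, sdiff_subset_sdiff_right (subset_toMeasurable _ _), ?_⟩
  rw [← measure_toMeasurable, cond_apply hS, ← ENNReal.div_eq_inv_mul, ENNReal.div_le_iff h0 h1,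
    ← ENNReal.div_eq_inv_mul] at hA
  have h2 := (measure_inter_add_sdiff (μ := μ) S hT).symm.le.trans (add_le_add_left hA _)
  nth_rewrite 1 [← ENNReal.add_halves (μ S)] at h2
  have h3 := (ENNReal.add_le_add_iff_left (ENNReal.div_ne_top h1 two_ne_zero)).1 h2
  rwa [ENNReal.div_le_iff' two_ne_zero ENNReal.ofNat_ne_top] at h3

theorem cova_alg {K Λ : ℝ} (hK : 1 ≤ K) (hΛ : 1 ≤ Λ) : ∃ B : ℝ, 1 ≤ B ∧ ∀ r₁ r : ℝ, 1 ≤ r₁ → r₁ ≤ r →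
    ∀ s ∈ M.ballR (3 * K), ∀ b ∈ M.Qb r₁, s * b ∈ M.Qb (B * r₁) ∧ b * s ∈ M.Qb (B * r₁) ∧ (b * s)⁻¹ ∈ M.Qb (B * r₁) ∧
      ∀ u ∈ M.ballR (K * (Λ * r) + K), s * u * (s * b)⁻¹ ∈ M.Qb (B * r) := by
  obtain ⟨B, hB, hc⟩ := M.Qb_calc
  have hKΛ : 0 ≤ K * Λ := by positivity
  have up : ∀ t : ℝ, 1 ≤ t → t ≤ B * t := fun t ht => le_mul_of_one_le_left (by linarith) hB
  have hD : 1 ≤ 4 * K + K * Λ := by linarith
  have d1 := hD.trans (up _ hD)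
  have d2 := d1.trans (up _ d1)
  have d3 := d2.trans (up _ d2)
  refine ⟨B * (B * (B * (B * (4 * K + K * Λ)))), d3.trans (up _ d3), fun r₁ r h1 h2 s hs b hb => ?_⟩
  simp only [mul_assoc B]
  have e0 : 1 ≤ (4 * K + K * Λ) * r₁ := one_le_mul_of_one_le_of_one_le hD h1
  have e1 := e0.trans (up _ e0)
  have e2 := e1.trans (up _ e1)
  have e3 := e2.trans (up _ e2)
  have f0 : 1 ≤ (4 * K + K * Λ) * r := one_le_mul_of_one_le_of_one_le hD (h1.trans h2)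
  have f1 := f0.trans (up _ f0)
  have f2 := f1.trans (up _ f1)
  have s1 := (hc _ e0).2.2.1 (M.ballR_mono (by nlinarith) hs)
  have b1 := M.Qb_mono ((le_mul_of_one_le_left (by linarith) hD).trans (up _ e0)) hb
  have m1 := (hc _ e1).1 s s1 b b1
  have m2 := (hc _ e1).1 b b1 s s1
  refine ⟨M.Qb_mono ((up _ e2).trans (up _ e3)) m1, M.Qb_mono ((up _ e2).trans (up _ e3)) m2,
    M.Qb_mono (up _ e3) ((hc _ e2).2.1 _ m2), fun u hu => (hc _ (f2.trans (up _ f2))).1 _ ?_ _ ?_⟩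
  · exact M.Qb_mono ((up _ f1).trans (up _ f2)) ((hc _ f0).2.2.1 (M.ballR_mono (by nlinarith) (M.mul_mem_ballR hs hu)))
  · exact M.Qb_mono (by gcongr) ((hc _ e2).2.1 _ m1)

/-- One piece.  `(φ q)⁻¹ φ (q x) = m b`; `H3` gives `s ∈ ballR 1` with `P2 ψ U₁ U r r₁ (φ (q x) s) 1` (`vol_ballR_pos`; a set of conditional measure `≤ 1 / 2` is
not everything).  Let `Z₀ = Sx U₁ 0 r \ toMeasurable (bad set)`, so `hV U₁ (Gv r) ≤ 2 hm Z₀` (`lw` is `cond`), `c = b s ∈ Qb (B r₁)`, `Z = c Z₀ c⁻¹` (`Sx_conj`,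
`hm_conj_GI`, `abs_rb_le`).  For `z = c z₀ c⁻¹` take `y = φ (q x) s z₀`, so `φ q * m * z = y * c⁻¹`.  With `y₀ = φ (q x) s`: `ψ y = ψ y₀ * m' * b'`, `ψ y₀ = q x s'`,
`s' ∈ ballR (3 K)`; `(ψ y₀)⁻¹ ψ y ∈ ballR (B r)` (`len_Box`), so `s' m' s'⁻¹ ∈ expSub U ∩ Qb (B r) ⊆ Sx U 0 R` (`Qb_calc`, `mem_Sx_of_Qb`), `Sx_mul`. -/
theorem cov_piece (K : ℝ) {U U₁ : Submodule ℝ (V h)} (hU : M.GI U) (hU₁ : M.GI U₁) : ∃ B : ℝ, 1 ≤ B ∧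
    ∀ (f : M.QP K) (R r r₁ : ℝ) (q : M.G), 1 ≤ r₁ → r₁ ≤ r → B * r ≤ R → ∀ x ∈ M.exp '' (U ∩ M.Gv R),
      M.G1 f.φ U₁ r₁ q x → M.H3 f.φ f.ψ U U₁ r r₁ (q * x) → ∃ m ∈ M.exp '' U₁, ∃ b ∈ M.Qb r₁, (f.φ q)⁻¹ * f.φ (q * x) = m * b ∧
        ∃ Z : Set M.G, MeasurableSet Z ∧ Z ⊆ M.Sx U₁ (B * r₁) r ∧ hV U₁ (M.Gv r) ≤ ENNReal.ofReal (Real.exp (B * r₁)) * M.hm U₁ Z ∧
          ∀ z ∈ Z, ∃ y, f.φ q * m * z ∈ {y} * M.Qb (B * r₁) ∧ f.ψ y ∈ {q} * M.Sx U B R * M.Qb (B * r₁) := by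
  rcases lt_or_ge K 1 with hK | hK
  · exact ⟨1, le_rfl, fun f => absurd f.one_le hK.not_ge⟩
  obtain ⟨Λ, hΛ, hl⟩ := M.len_Box 1
  obtain ⟨B₀, h₀, ha⟩ := M.cova_alg hK hΛ
  obtain ⟨B₂, h₂, hcj⟩ := M.Sx_conj
  obtain ⟨B₃, h₃, hrb⟩ := M.abs_rb_le U₁
  obtain ⟨B₄, h₄, hmu⟩ := M.Sx_mul
  obtain ⟨B, c₀, c₂, c₃, c₄⟩ : ∃ B : ℝ, B₀ ≤ B ∧ B₂ * B₀ ≤ B ∧ 1 + B₃ * B₀ ≤ B ∧ B₄ ≤ B :=
    ⟨max (max B₀ (B₂ * B₀)) (max (1 + B₃ * B₀) B₄), by simp, by simp, by simp, by simp⟩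
  have hS := Core.IsIdl.isSub _ hU.idl
  have hS₁ := Core.IsIdl.isSub _ hU₁.idl
  refine ⟨B, h₀.trans c₀, fun f R r r₁ q h1 h2 hR x hx ⟨m, hm, b, hb, e⟩ hH => ⟨m, (M.mem_expSub hS₁).1 hm, b, hb, e.symm, ?_⟩⟩
  have hr₁ : 0 ≤ r₁ := zero_le_one.trans h1
  have hr : 0 ≤ r := hr₁.trans h2
  obtain ⟨S, -, hS1, hS2⟩ := cova_half (M.isCompact_ballR 1).measurableSet (M.vol_ballR_pos le_rfl).ne'
    (M.vol_ballR_lt_top 1).ne hH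
  obtain ⟨s, hs⟩ := nonempty_of_measure_ne_zero (μ := volume) (s := S) fun h0 =>
    (M.vol_ballR_pos le_rfl).not_ge (by simpa [h0] using hS2)
  obtain ⟨hs1, hs2⟩ := hS1 hs
  obtain ⟨Z, hZ, hZ1, hZ2⟩ := cova_half ((M.isCompact_Gv r).image M.continuous_exp).measurableSet
    (by rw [M.hm_exp]; exact M.hV_Gv_ne_zero hU₁.le r) (by rw [M.hm_exp]; exact M.hV_Gv_ne_top U₁ r)
    ((not_not.1 hs2).trans (ENNReal.inv_le_inv.2 (by norm_num)))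
  rw [M.hm_exp, ← M.hm_inter hS₁] at hZ2
  obtain ⟨-, a2, a3, -⟩ := ha r₁ r h1 h2 s (M.ballR_mono (by linarith) hs1) b hb
  have t1 : 1 ≤ B₀ * r₁ := one_le_mul_of_one_le_of_one_le h₀ h1
  have t2 : B₀ * r₁ ≤ B * r₁ := by gcongr
  refine ⟨(fun z => b * s * z * (b * s)⁻¹) '' (Z ∩ M.expSub U₁), ((measurableEmbedding_mulRight _).comp
    (measurableEmbedding_mulLeft _)).measurableSet_image.2 (hZ.inter (M.isClosed_expSub hS₁).measurableSet), ?_, ?_, ?_⟩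
  · rintro _ ⟨z, ⟨hz, hz'⟩, rfl⟩
    obtain ⟨X, hX, rfl⟩ := (hZ1 hz).1
    refine M.Sx_mono U₁ (by rw [← mul_assoc]; gcongr) le_rfl (hcj U₁ hU₁ _ r t1 _ a2 _ (M.Sx_mono U₁ (zero_le_one.trans t1) le_rfl ?_))
    rw [M.Sx_zero]
    exact ⟨X, ⟨(M.exp_mem_expSub hS₁).1 hz', hX⟩, rfl⟩
  · rw [M.hm_conj_GI hU₁, ← mul_assoc, ← ENNReal.ofReal_mul (Real.exp_pos _).le, ← Real.exp_add]
    refine hZ2.trans (mul_le_mul_left ?_ _)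
    rw [← ENNReal.ofReal_ofNat]
    refine ENNReal.ofReal_le_ofReal (le_trans ?_ (Real.add_one_le_exp _))
    have := (le_abs_self _).trans (hrb _ _ a2)
    nlinarith [mul_le_mul_of_nonneg_right c₃ hr₁]
  · rintro _ ⟨z, ⟨hz, -⟩, rfl⟩
    obtain ⟨hz1, hz2⟩ := hZ1 hz
    obtain ⟨m', hm', b', hb', e'⟩ := not_not.1 hz2
    simp only [inv_one, one_mul, mul_one] at e e'
    have s1 : (q * x)⁻¹ * f.ψ (f.φ (q * x) * s) ∈ M.ballR (3 * K) := by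
      have := M.mul_mem_ballR (r := K) (f.left (q * x)) (pma_step (by linarith) f.lψ (f.φ (q * x)) hs1)
      rw [mul_assoc, mul_inv_cancel_left] at this
      exact M.ballR_mono (by linarith) this
    obtain ⟨a1, -, -, a4⟩ := ha r₁ r h1 h2 _ s1 b' hb'
    have a5 := a4 _ (pma_step (by linarith) f.lψ (f.φ (q * x) * s) ((hl r (h1.trans h2)).2 (by rwa [one_smul])))
    have e1 : f.ψ (f.φ (q * x) * s * z) = f.ψ (f.φ (q * x) * s) * (m' * b') := by rw [e', mul_inv_cancel_left]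
    have e2 : f.φ (q * x) = f.φ q * (m * b) := by rw [e, mul_inv_cancel_left]
    rw [← e'] at a5
    generalize f.ψ (f.φ (q * x) * s) = w at *
    have a6 : (q * x)⁻¹ * w * m' * ((q * x)⁻¹ * w)⁻¹ ∈ M.Sx U 0 R :=
      M.mem_Sx_of_Qb hU (le_trans (by nlinarith) hR) (M.conj_mem_expSub hS (hU.Ad _) hm')
        (M.Qb_mono ((mul_le_mul_of_nonneg_right c₀ hr).trans hR) (by convert a5 using 1; group))
    rw [← M.Sx_zero] at hx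
    refine ⟨f.φ (q * x) * s * z, ⟨_, rfl, _, M.Qb_mono t2 a3, by rw [e2]; group⟩, _, ⟨_, rfl, _, M.Sx_mono U (by linarith) le_rfl
      (hmu U hS 1 R le_rfl _ (M.Sx_mono U zero_le_one le_rfl hx) _ (M.Sx_mono U zero_le_one le_rfl a6)), rfl⟩, _,
      M.Qb_mono t2 a1, by rw [e1]; group⟩

/-- Counting.  `Z' = ⋃ x ∈ F, m x * Z x` has `hm U₁ Z' = ∑ hm U₁ (Z x)` (`measure_biUnion_finset`, `hm_image_left`); `Y = ψ ⁻¹' ({q} * Sx U a R * Qb a)`;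
`hm_le_vol_Qb`, `vol_le_image` for `f.symm`, `vol_Qb_le_hm`, `unit_subset_Sx`, `Sx_mul`, `hm_Sx_le`. -/
theorem cov_count (K : ℝ) {U U₁ : Submodule ℝ (V h)} (hU : M.GI U) (hU₁ : M.GI U₁) : ∃ B : ℝ, 1 ≤ B ∧
    ∀ (f : M.QP K) (R a : ℝ) (q : M.G) (v : ℝ≥0∞) (F : Finset M.G) (m : M.G → M.G) (Z : M.G → Set M.G), 1 ≤ a → 0 ≤ R →
      (∀ x ∈ F, m x ∈ M.exp '' U₁ ∧ MeasurableSet (Z x) ∧ v ≤ ENNReal.ofReal (Real.exp a) * M.hm U₁ (Z x) ∧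
        ∀ z ∈ Z x, ∃ y, f.φ q * m x * z ∈ {y} * M.Qb a ∧ f.ψ y ∈ {q} * M.Sx U a R * M.Qb a) →
      (F : Set M.G).PairwiseDisjoint (fun x => {m x} * Z x) →
      (F.card : ℝ≥0∞) * v ≤ ENNReal.ofReal (Real.exp (B * a)) * hV U (M.Gv R) := by
  have sU : M.IsSub U := hU.idl.isSub
  have sU₁ : M.IsSub U₁ := hU₁.idl.isSub
  obtain ⟨B₁, hB₁, h₁⟩ := M.hm_le_vol_Qb sU₁
  obtain ⟨B₂, hB₂, h₂⟩ := M.vol_le_image K 1
  obtain ⟨B₃, hB₃, h₃⟩ := M.vol_Qb_le_hm sU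
  obtain ⟨B₄, hB₄, h₄⟩ := M.Sx_mul
  have hh : (0 : ℝ) ≤ h := Nat.cast_nonneg _
  refine ⟨1 + B₁ + B₂ + B₃ + h * B₄, by nlinarith, fun f R a q v F m Z ha hR hF hd => ?_⟩
  have e1 : ∀ x, ({m x} : Set M.G) * Z x = (fun g => m x * g) '' Z x := fun x => Set.singleton_mul
  have s1 : M.hm U₁ (⋃ x ∈ F, {m x} * Z x) = ∑ x ∈ F, M.hm U₁ (Z x) := by
    rw [measure_biUnion_finset hd]
    · refine Finset.sum_congr rfl fun x hx => ?_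
      rw [e1, M.hm_image_left sU₁ (Subgroup.subset_closure (hF x hx).1)]
    · intro x hx
      rw [e1]
      exact (measurableEmbedding_mulLeft (m x)).measurableSet_image.2 (hF x hx).2.1
  have s2 : (F.card : ℝ≥0∞) * v ≤ ENNReal.ofReal (Real.exp a) * M.hm U₁ (⋃ x ∈ F, {m x} * Z x) := by
    rw [s1, Finset.mul_sum, ← nsmul_eq_mul, ← Finset.sum_const]
    exact Finset.sum_le_sum fun x hx => (hF x hx).2.2.1
  set Y : Set M.G := f.ψ ⁻¹' ({q} * M.Sx U a R * M.Qb a) with hY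
  have s3 := h₁ a ha (f.φ q) (⋃ x ∈ F, {m x} * Z x) Y (by
    rintro _ ⟨_, rfl, w, hw, rfl⟩
    simp only [Set.mem_iUnion] at hw
    obtain ⟨x, hx, _, rfl, z, hz, rfl⟩ := hw
    obtain ⟨y, ⟨_, rfl, b, hb, e⟩, hy⟩ := (hF x hx).2.2.2 z hz
    exact ⟨_, hy, b, hb, e.trans (mul_assoc _ _ _)⟩)
  have s4 := h₂ f.symm Y
  have s5 : volume (f.symm.φ '' Y * M.ballR 1) ≤ volume ({q} * M.Sx U a R * M.Qb a * M.ballR 1) :=
    measure_mono (Set.mul_subset_mul_right (Set.image_preimage_subset _ _))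
  have s6 := h₃ a ha q (M.Sx U a R) (M.Sx_subset a R)
  have s7 : M.hm U (M.Sx U a R * M.exp '' (U ∩ Metric.closedBall 0 1)) ≤ M.hm U (M.Sx U (B₄ * a) R) := by
    refine measure_mono ?_
    rintro _ ⟨x, hx, y, hy, rfl⟩
    exact h₄ U sU a R ha x hx y (M.Sx_mono U (by linarith) le_rfl (M.unit_subset_Sx hU.le hR hy))
  have s8 := M.hm_Sx_le U (a := B₄ * a) (by positivity) R
  have s9 : ENNReal.ofReal B₂ ≤ ENNReal.ofReal (Real.exp (B₂ * a)) :=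
    ENNReal.ofReal_le_ofReal (by nlinarith [Real.add_one_le_exp (B₂ * a)])
  calc (F.card : ℝ≥0∞) * v
      ≤ ENNReal.ofReal (Real.exp a) * (ENNReal.ofReal (Real.exp (B₁ * a)) * (ENNReal.ofReal (Real.exp (B₂ * a)) *
          (ENNReal.ofReal (Real.exp (B₃ * a)) * (ENNReal.ofReal (Real.exp (h * (B₄ * a))) * hV U (M.Gv R))))) := by
        refine s2.trans (mul_le_mul_right (s3.trans (mul_le_mul_right (s4.trans ?_) _)) _)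
        exact mul_le_mul' s9 (s5.trans (s6.trans (mul_le_mul_right (s7.trans s8) _)))
    _ = _ := by
        rw [← mul_assoc, ← mul_assoc, ← mul_assoc, ← mul_assoc, ← ENNReal.ofReal_mul (Real.exp_pos _).le,
          ← Real.exp_add, ← ENNReal.ofReal_mul (Real.exp_pos _).le, ← Real.exp_add,
          ← ENNReal.ofReal_mul (Real.exp_pos _).le, ← Real.exp_add, ← ENNReal.ofReal_mul (Real.exp_pos _).le,
          ← Real.exp_add]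
        congr 3
        ring

/-- the good set: complement in `exp (U ∩ Gv R)` of three sets of conditional measure `≤ 1 / 6` (`lw_apply`, `hm_apply`) -/
theorem CH.good {M : Model h k} {φ ψ : M.G → M.G} {U U₁ U₂ : Submodule ℝ (V h)} (hU : U ≤ M.E) {R r r₁ : ℝ} {q g : M.G}
    (hC : M.CH φ ψ U U₁ U₂ R r r₁ q g) : ∃ A ⊆ M.exp '' (U ∩ M.Gv R), hV U (M.Gv R) ≤ 2 * M.hm U A ∧
      ∀ x ∈ A, M.G1 φ U₁ r₁ q x ∧ M.G1 φ U₂ r₁ (q * g) (g⁻¹ * x * g) ∧ M.H3 φ ψ U U₁ r r₁ (q * x) := by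
  have hp := M.isProbabilityMeasure_lw_Gv hU one_pos R
  rw [one_smul] at hp
  have hK := M.isCompact_Gv R
  set A : Set M.G := {x | x ∈ M.exp '' (U ∩ M.Gv R) ∧
    M.G1 φ U₁ r₁ q x ∧ M.G1 φ U₂ r₁ (q * g) (g⁻¹ * x * g) ∧ M.H3 φ ψ U U₁ r r₁ (q * x)} with hA
  refine ⟨A, fun x hx => hx.1, ?_, fun x hx => hx.2⟩
  have h1 : M.lw U (M.Gv R) {x | ¬M.G1 φ U₁ r₁ q x} ≤ 6⁻¹ := by
    have := hC.p1
    simpa only [P2, inv_one, one_mul, mul_one] using this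
  have h2 : M.lw U (M.Gv R) {x | ¬M.G1 φ U₂ r₁ (q * g) (g⁻¹ * x * g)} ≤ 6⁻¹ := hC.p2
  have h3 : M.lw U (M.Gv R) {x | ¬M.H3 φ ψ U U₁ r r₁ (q * x)} ≤ 6⁻¹ := hC.p3
  have h4 := M.lw_compl U hK
  have h5 : (univ : Set M.G) ⊆ A ∪ ((M.exp '' (U ∩ M.Gv R))ᶜ ∪ ({x | ¬M.G1 φ U₁ r₁ q x} ∪
      {x | ¬M.G1 φ U₂ r₁ (q * g) (g⁻¹ * x * g)} ∪ {x | ¬M.H3 φ ψ U U₁ r r₁ (q * x)})) := by
    intro x _
    simp only [hA, mem_union, mem_compl_iff, mem_ofPred_eq]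
    tauto
  have h6 : (6 : ℝ≥0∞)⁻¹ + 6⁻¹ + 6⁻¹ = 2⁻¹ := by
    rw [← ENNReal.toReal_eq_toReal_iff' (by finiteness) (by finiteness), ENNReal.toReal_add (by finiteness) (by finiteness),
      ENNReal.toReal_add (by finiteness) (by finiteness)]
    norm_num
  have h7 : (2 : ℝ≥0∞)⁻¹ + 2⁻¹ ≤ M.lw U (M.Gv R) A + 2⁻¹ := by
    rw [ENNReal.inv_two_add_inv_two, ← hp.measure_univ]
    refine (measure_mono h5).trans ((measure_union_le _ _).trans (add_le_add le_rfl ((measure_union_le _ _).trans ?_)))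
    rw [h4, zero_add, ← h6]
    exact (measure_union_le _ _).trans (add_le_add ((measure_union_le _ _).trans (add_le_add h1 h2)) h3)
  have h8 := ENNReal.le_of_add_le_add_right (by finiteness) h7
  rw [M.lw_apply U hK] at h8
  have h9 : hV U (M.Gv R ∩ M.exp ⁻¹' A) ≤ M.hm U A := by
    rw [M.hm_apply]
    exact measure_mono inter_subset_right
  calc hV U (M.Gv R) = 2 * (hV U (M.Gv R) * 2⁻¹) := by
        rw [mul_left_comm, ENNReal.mul_inv_cancel (by norm_num) (by norm_num), mul_one]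
    _ ≤ 2 * (hV U (M.Gv R) * ((hV U (M.Gv R))⁻¹ * M.hm U A)) := by
        gcongr
        exact h8.trans (by gcongr)
    _ ≤ 2 * (1 * M.hm U A) := by
        rw [← mul_assoc (hV U (M.Gv R))]
        gcongr
        exact ENNReal.mul_inv_le_one _
    _ = 2 * M.hm U A := by rw [one_mul]

theorem cvd_Qb (K : ℝ) : ∃ B : ℝ, 1 ≤ B ∧ ∀ (f : M.QP K) (r₀ r₁ : ℝ) (g : M.G), 1 ≤ r₀ → 1 ≤ r₁ → g ∈ M.ballR r₀ →
    (∀ p, (f.φ p)⁻¹ * f.φ (p * g) ∈ M.Qb (B * (r₀ + r₁)) ∧ ((f.φ p)⁻¹ * f.φ (p * g))⁻¹ ∈ M.Qb (B * (r₀ + r₁))) ∧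
      ∀ b ∈ M.Qb r₁, b ∈ M.Qb (B * (r₀ + r₁)) ∧ b⁻¹ ∈ M.Qb (B * (r₀ + r₁)) := by
  obtain ⟨B, hB, hb⟩ := M.Qb_calc
  have hK := abs_nonneg K
  refine ⟨B * (|K| + 1), one_le_mul_of_one_le_of_one_le hB (by linarith), fun f r₀ r₁ g h0 h1 hg => ?_⟩
  have h2 : r₁ ≤ (|K| + 1) * (r₀ + r₁) := by nlinarith
  obtain ⟨-, h3, h4, -⟩ := hb _ (h1.trans h2)
  rw [mul_assoc]
  refine ⟨fun p => ?_, fun b hb => ⟨M.Qb_mono (h2.trans (le_mul_of_one_le_left (by linarith) hB)) hb, h3 b (M.Qb_mono h2 hb)⟩⟩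
  have h5 : (f.φ p)⁻¹ * f.φ (p * g) ∈ M.ballR ((|K| + 1) * (r₀ + r₁)) := by
    refine M.ballR_mono ?_ (pma_step (zero_le_one.trans f.one_le) f.lφ p hg)
    rw [abs_of_nonneg (zero_le_one.trans f.one_le)]
    nlinarith [f.one_le]
  exact ⟨h4 h5, h4 (M.inv_mem_ballR h5)⟩

/-- Transfer to the second base point.  `g' = (φ q)⁻¹ φ (q g)`, `φ (q x g) = φ (q g) m'' b'`, `φ (q x g) = φ (q x) s` with `g', s ∈ ballR (2 K r₀)`; so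
`g' m'' g'⁻¹ = y t (b s b'⁻¹ g'⁻¹)`, and the last factor lies in `expSub U' ∩ Qb (B (r₀ + r₁)) ⊆ Sx U' 0 r`. -/
theorem cmp_transfer (K : ℝ) {U' : Submodule ℝ (V h)} (hU' : M.GI U') : ∃ B : ℝ, 1 ≤ B ∧
    ∀ (f : M.QP K) (r r₀ r₁ a : ℝ) (q g x y : M.G), 1 ≤ r₀ → 1 ≤ r₁ → 1 ≤ a → B * (r₀ + r₁) ≤ r → g ∈ M.ballR r₀ → y ∈ M.exp '' U' →
      (f.φ q)⁻¹ * f.φ (q * x) ∈ {y} * M.Sx U' a r * M.Qb r₁ → M.G1 f.φ U' r₁ (q * g) (g⁻¹ * x * g) →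
      ∃ t ∈ M.Sx U' (B * a) r, ∃ b ∈ M.Qb r₁, f.φ (q * x * g) =
        f.φ (q * g) * (((f.φ q)⁻¹ * f.φ (q * g))⁻¹ * (y * t) * ((f.φ q)⁻¹ * f.φ (q * g))) * b := by
  obtain ⟨B₀, hB₀, h₀⟩ := M.Qb_calc
  obtain ⟨B₁, hB₁, h₁⟩ := M.cvd_Qb K
  obtain ⟨B₂, hB₂, h₂⟩ := M.Sx_mul
  refine ⟨max (B₀ * (B₀ * B₁)) B₂, le_max_of_le_right hB₂, fun f r r₀ r₁ a q g x y h0 h1 ha hr hg hy hx hG => ?_⟩
  obtain ⟨_, ⟨y, hy', t, ht, rfl⟩, b, hb, e⟩ := hx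
  obtain rfl := Set.mem_singleton_iff.1 hy'
  obtain ⟨m, hm, b', hb', e'⟩ := hG
  obtain ⟨h3, h4⟩ := h₁ f r₀ r₁ g h0 h1 hg
  have hs := hU'.idl.isSub
  have h5 : 1 ≤ B₁ * (r₀ + r₁) := one_le_mul_of_one_le_of_one_le hB₁ (by linarith)
  have h6 : 1 ≤ B₀ * (B₁ * (r₀ + r₁)) := one_le_mul_of_one_le_of_one_le hB₀ h5
  have h7 := (h₀ _ h6).1 _ ((h₀ _ h5).1 _ (h4 b hb).1 _ (h3 (q * x)).1) _ ((h₀ _ h5).1 _ (h4 b' hb').2 _ (h3 q).2)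
  have h8 : B₀ * (B₀ * (B₁ * (r₀ + r₁))) ≤ r := by
    refine le_trans ?_ ((mul_le_mul_of_nonneg_right (le_max_left _ _) (by linarith)).trans hr)
    rw [mul_assoc, mul_assoc]
  rw [show q * g * (g⁻¹ * x * g) = q * x * g by group] at e'
  have e1 : f.φ (q * x) = f.φ q * (y * t * b) := (eq_inv_mul_iff_mul_eq.1 e).symm
  have e2 : f.φ (q * x * g) = f.φ (q * g) * (m * b') := (eq_inv_mul_iff_mul_eq.1 e').symm
  have e3 : b * ((f.φ (q * x))⁻¹ * f.φ (q * x * g)) * (b'⁻¹ * ((f.φ q)⁻¹ * f.φ (q * g))⁻¹) =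
      (y * t)⁻¹ * ((f.φ q)⁻¹ * f.φ (q * g) * m * ((f.φ q)⁻¹ * f.φ (q * g))⁻¹) := by
    rw [e1, e2]; group
  rw [e3] at h7
  have h9 := M.mem_Sx_of_Qb hU' (ρ := r) ((zero_le_one.trans (one_le_mul_of_one_le_of_one_le hB₀ h6)).trans h8) (mul_mem (inv_mem (mul_mem (Subgroup.subset_closure hy)
    (Subgroup.subset_closure (M.Sx_subset a r ht)))) (M.conj_mem_expSub hs (hU'.Ad _) hm)) (M.Qb_mono h8 h7)
  refine ⟨_, M.Sx_mono U' (mul_le_mul_of_nonneg_right (le_max_right _ _) (by linarith)) le_rfl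
    (h₂ U' hs a r ha t ht _ (M.Sx_mono U' (by linarith) le_rfl h9)), b', hb', ?_⟩
  rw [e2]; group

/-- The upper volume chain.  `P = g'⁻¹ (F * Sx U' a r) g' ⊆ exp U'`; `P * exp (U' ∩ B₁) ⊆ g'⁻¹ (F * Sx U' (B a) r) g'` because
`g' exp (U' ∩ B₁) g'⁻¹ ⊆ expSub U' ∩ Qb (B r₀) ⊆ Sx U' 0 r`; `vol_Qb_le_hm`, `hm_conj_GI` for `g'⁻¹`, `hm_finset_mul_le`, `hm_Sx_le`. -/
theorem cmp_upper {U' : Submodule ℝ (V h)} (hU' : M.GI U') : ∃ B : ℝ, 1 ≤ B ∧ ∀ (r r₀ a : ℝ) (y₁ g' : M.G) (F : Finset M.G), 1 ≤ r₀ → 1 ≤ a →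
    B * r₀ ≤ r → g' ∈ M.ballR r₀ → ↑F ⊆ M.exp '' U' →
    volume ({z | ∃ y ∈ F, ∃ t ∈ M.Sx U' a r, ∃ b ∈ M.Qb a, z = y₁ * (g'⁻¹ * (y * t) * g') * b} * M.ballR 1) ≤
      ENNReal.ofReal (Real.exp (B * a + M.rb U' ⬝ᵥ M.chi g')) * (F.card * hV U' (M.Gv r)) := by
  have hS : M.IsSub U' := Core.IsIdl.isSub _ hU'.idl
  obtain ⟨B₁, hB₁, h1⟩ := M.vol_Qb_le_hm hS
  obtain ⟨B₂, hB₂, h2⟩ := M.Sx_mul
  obtain ⟨B₃, hB₃, h3⟩ := M.exists_norm_Ad_le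
  have hh : 0 ≤ (h : ℝ) * B₂ := by positivity
  refine ⟨B₁ + h * B₂ + B₃, by linarith, fun r r₀ a y₁ g' F hr₀ ha hr hg hF => ?_⟩
  have hr' : B₃ * r₀ ≤ r := by nlinarith
  have hr0 : 0 ≤ r := le_trans (by positivity) hr'
  have hsub : ∀ {x : M.G}, x ∈ M.exp '' U' ↔ x ∈ M.expSub U' := fun {x} => (M.mem_expSub hS).symm
  have hP : (fun x => g'⁻¹ * x * g'⁻¹⁻¹) '' (↑F * M.Sx U' a r) ⊆ M.exp '' U' := by
    rintro _ ⟨_, ⟨y, hy, t, ht, rfl⟩, rfl⟩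
    exact hsub.2 (M.conj_mem_expSub hS (hU'.Ad _) (mul_mem (hsub.1 (hF hy)) (hsub.1 (M.Sx_subset a r ht))))
  have e1 : {z | ∃ y ∈ F, ∃ t ∈ M.Sx U' a r, ∃ b ∈ M.Qb a, z = y₁ * (g'⁻¹ * (y * t) * g') * b} ⊆
      {y₁} * (fun x => g'⁻¹ * x * g'⁻¹⁻¹) '' (↑F * M.Sx U' a r) * M.Qb a := by
    rintro _ ⟨y, hy, t, ht, b, hb, rfl⟩
    exact mul_mem_mul (mul_mem_mul rfl ⟨y * t, mul_mem_mul hy ht, by rw [inv_inv]⟩) hb
  have e2 : (fun x => g'⁻¹ * x * g'⁻¹⁻¹) '' (↑F * M.Sx U' a r) * M.exp '' (U' ∩ Metric.closedBall 0 1) ⊆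
      (fun x => g'⁻¹ * x * g'⁻¹⁻¹) '' (↑F * M.Sx U' (B₂ * a) r) := by
    rintro _ ⟨_, ⟨_, ⟨y, hy, t, ht, rfl⟩, rfl⟩, _, ⟨X, hX, rfl⟩, rfl⟩
    have hX1 : ‖M.Ad g' X‖ ≤ Real.exp r := by
      refine (h3 g' X).trans ((mul_le_of_le_one_right (Real.exp_pos _).le (by simpa using hX.2)).trans ?_)
      exact Real.exp_le_exp.2 ((mul_le_mul_of_nonneg_left hg hB₃).trans hr')
    have hm := M.Sx_mono U' (zero_le_one.trans ha) le_rfl (M.mem_Sx_of_Qb hU' hr0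
      ((M.exp_mem_expSub hS).2 (hU'.Ad g' X hX.1)) ((M.exp_mem_Qb hr0).2 hX1))
    refine ⟨y * (t * M.exp (M.Ad g' X)), mul_mem_mul hy (h2 U' hS a r ha t ht _ hm), ?_⟩
    rw [← M.conj]
    simp only [mul_assoc, inv_inv, inv_mul_cancel, mul_one]
  refine (measure_mono (mul_subset_mul_right e1)).trans ((h1 a ha y₁ _ hP).trans ?_)
  refine (mul_le_mul_right (measure_mono e2) _).trans ?_
  rw [M.hm_conj_GI hU', M.chi_inv, dotProduct_neg, neg_neg]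
  refine (mul_le_mul_right (mul_le_mul_right ((M.hm_finset_mul_le hS hF _).trans
    (mul_le_mul_right (M.hm_Sx_le U' (by positivity) r) _)) _) _).trans ?_
  rw [mul_left_comm (F.card : ℝ≥0∞), ← mul_assoc, ← mul_assoc, ← ENNReal.ofReal_mul (Real.exp_pos _).le,
    ← ENNReal.ofReal_mul (by positivity), ← Real.exp_add, ← Real.exp_add]
  refine mul_le_mul_left (ENNReal.ofReal_le_ofReal (Real.exp_le_exp.2 ?_)) _
  nlinarith [mul_nonneg hB₃ (zero_le_one.trans ha)]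

/-- The lower volume chain: `hm_conj_GI` for `g⁻¹`, `hm_le_volR`, left invariance (`q * x * g = (q * g) * (g⁻¹ * x * g)`), `vol_le_image` -/
theorem cmp_lower (K : ℝ) {U : Submodule ℝ (V h)} (hU : M.GI U) : ∃ B : ℝ, 1 ≤ B ∧ ∀ (f : M.QP K) (q g : M.G) (A : Set M.G),
    ENNReal.ofReal (Real.exp (M.rb U ⬝ᵥ M.chi g)) * M.hm U A ≤
      ENNReal.ofReal B * volume (f.φ '' ((fun x => q * x * g) '' A) * M.ballR 1) := by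
  obtain ⟨B₁, hB₁, h1⟩ := M.hm_le_volR (Core.IsIdl.isSub _ hU.idl)
  obtain ⟨B₂, hB₂, h2⟩ := M.vol_le_image K 1
  refine ⟨B₁ * B₂, one_le_mul_of_one_le_of_one_le hB₁ hB₂, fun f q g A => ?_⟩
  have h3 := M.hm_conj_GI hU g⁻¹ A
  rw [M.chi_inv, dotProduct_neg, neg_neg, inv_inv] at h3
  rw [← h3, ENNReal.ofReal_mul (by linarith), mul_assoc]
  refine (h1 _).trans (mul_le_mul' le_rfl (le_trans ?_ (h2 f _)))
  rw [← measure_preimage_mul volume (q * g) ((fun x => q * x * g) '' A * M.ballR 1)]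
  refine measure_mono ?_
  rintro _ ⟨_, ⟨x, hx, rfl⟩, s, hs, rfl⟩
  exact ⟨_, ⟨x, hx, rfl⟩, s, hs, by simp only; group⟩

/-- `(φ q)⁻¹ φ (q x) = g' m'' b' s⁻¹`, `bb_mul`, `Aff.Qb_le`, `Aff.bb_exp_mul` -/
theorem cmp2_bb (K : ℝ) {U₂ : Submodule ℝ (V h)} (hU₂ : M.GI U₂) {β : Fin k → ℝ} (A : M.Aff β) (h₂ : ∀ X ∈ U₂, A.ℓ X = 0) :
    ∃ B : ℝ, 1 ≤ B ∧ ∀ (f : M.QP K) (r₀ r₁ : ℝ) (q g x : M.G), 1 ≤ r₀ → 1 ≤ r₁ → g ∈ M.ballR r₀ →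
      M.G1 f.φ U₂ r₁ (q * g) (g⁻¹ * x * g) → ‖A.bb ((f.φ q)⁻¹ * f.φ (q * x))‖ ≤ Real.exp (B * (r₀ + r₁)) := by
  obtain ⟨B₀, hB₀, h₀⟩ := M.Qb_calc
  obtain ⟨B₁, hB₁, h₁⟩ := M.cvd_Qb K
  obtain ⟨B₂, hB₂, h₃⟩ := A.Qb_le
  refine ⟨3 * (B₂ * (B₀ * B₁)), ?_, fun f r₀ r₁ q g x h0 h1 hg hG => ?_⟩
  · linarith [one_le_mul_of_one_le_of_one_le hB₂ (one_le_mul_of_one_le_of_one_le hB₀ hB₁)]
  obtain ⟨m, hm, b', hb', e'⟩ := hG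
  obtain ⟨X, hX, rfl⟩ := (M.mem_expSub hU₂.idl.isSub).1 hm
  obtain ⟨h3, h4⟩ := h₁ f r₀ r₁ g h0 h1 hg
  have h5 : 1 ≤ B₁ * (r₀ + r₁) := one_le_mul_of_one_le_of_one_le hB₁ (by linarith)
  have h6 : 1 ≤ B₀ * (B₁ * (r₀ + r₁)) := one_le_mul_of_one_le_of_one_le hB₀ h5
  have h7 := (h₃ _ h6 _ ((h₀ _ h5).1 _ (h4 b' hb').1 _ (h3 (q * x)).2)).1
  obtain ⟨h8, h9⟩ := h₃ _ h6 _ (M.Qb_mono (le_mul_of_one_le_left (by linarith) hB₀) (h3 q).1)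
  rw [show q * g * (g⁻¹ * x * g) = q * x * g by group] at e'
  have e2 : f.φ (q * x * g) = f.φ (q * g) * (M.exp X * b') := (eq_inv_mul_iff_mul_eq.1 e').symm
  have e3 : (f.φ q)⁻¹ * f.φ (q * x) =
      (f.φ q)⁻¹ * f.φ (q * g) * (M.exp X * (b' * ((f.φ (q * x))⁻¹ * f.φ (q * x * g))⁻¹)) := by
    rw [e2]; group
  rw [e3, A.bb_mul, A.bb_exp_mul, h₂ X hX, zero_add,
    show 3 * (B₂ * (B₀ * B₁)) * (r₀ + r₁) = (3 : ℕ) * (B₂ * (B₀ * (B₁ * (r₀ + r₁)))) by push_cast; ring, Real.exp_nat_mul]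
  refine (norm_add_le _ _).trans ?_
  rw [norm_mul]
  have h10 := Real.add_one_le_exp (B₂ * (B₀ * (B₁ * (r₀ + r₁))))
  have h11 := one_le_mul_of_one_le_of_one_le hB₂ h6
  have h12 := mul_le_mul h9 h7 (norm_nonneg _) (Real.exp_pos _).le
  generalize Real.exp (B₂ * (B₀ * (B₁ * (r₀ + r₁)))) = E at *
  have h13 : 2 ≤ E := by linarith
  nlinarith [mul_le_mul_of_nonneg_left h13 (sq_nonneg E), mul_le_mul_of_nonneg_left h13 (by linarith : 0 ≤ E)]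

theorem cvf_exp {s c a : ℝ} (hs : 0 ≤ s) (hc : 0 ≤ c) (ha : 1 ≤ a) :
    Real.exp s + Real.exp c + Real.exp c ≤ Real.exp (s + c + 2 * a) := by
  have h1 : Real.exp s ≤ Real.exp (s + c) := Real.exp_le_exp.2 (by linarith)
  have h2 : Real.exp c ≤ Real.exp (s + c) := Real.exp_le_exp.2 (by linarith)
  have h3 : 3 ≤ Real.exp (2 * a) := by linarith [Real.add_one_le_exp (2 * a)]
  rw [Real.exp_add (s + c)]
  nlinarith [Real.exp_pos (s + c)]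

/-- The upper chain with slabs.  For `z = y₀ * y * t * b`: `‖ℓ (lgm y) + ℓ (log t)‖ ≤ exp s + exp (B a)`; after multiplication by `exp (U₁ ∩ B₁)` the point `log t'`
lies in `exp (B a) • Gv r` and in a slab of width `exp (s + B a)`; `vol_Qb_le_hm`, subadditivity over `y ∈ F`, `hm_image_left`, `slab_le`. -/
theorem cmp2_upper {U₁ : Submodule ℝ (V h)} (hU₁ : M.GI U₁) {β : Fin k → ℝ} (A : M.Aff β) (h₁ : A.X0 ∈ U₁) : ∃ B : ℝ, 1 ≤ B ∧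
    ∀ (r a s : ℝ) (y₀ : M.G) (F : Finset M.G), 0 ≤ r → 1 ≤ a → 0 ≤ s → ↑F ⊆ M.exp '' U₁ →
      volume ({z | (∃ y ∈ F, y₀⁻¹ * z ∈ {y} * M.Sx U₁ a r * M.Qb a) ∧ ‖A.bb (y₀⁻¹ * z)‖ ≤ Real.exp s} * M.ballR 1) ≤
        ENNReal.ofReal (Real.exp (B * a + s - r)) * (F.card * hV U₁ (M.Gv r)) := by
  have hS : M.IsSub U₁ := hU₁.idl.isSub
  obtain ⟨B₁, hB₁, H₁⟩ := A.Qb_le
  obtain ⟨B₂, hB₂, H₂⟩ := M.vol_Qb_le_hm hS
  obtain ⟨B₃, hB₃, H₃⟩ := M.Sx_mul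
  obtain ⟨B₅, hB₅, H₅⟩ := M.slab_le A h₁
  refine ⟨B₂ + B₅ * B₃ + B₁ + 2, by nlinarith, fun r a s y₀ F hr ha hs hF => ?_⟩
  set P : Set M.G := {p | ∃ y ∈ F, ∃ T, M.exp T ∈ M.Sx U₁ a r ∧ ‖A.ℓ T + A.bb y‖ ≤ Real.exp s + Real.exp (B₁ * a) ∧
    p = y * M.exp T} with hP
  set W : M.G → Set (V h) := fun y => {Z | Z ∈ Real.exp (B₃ * a) • M.Gv r ∧ ‖A.ℓ Z - (-A.bb y)‖ ≤ Real.exp (s + B₁ * a + 2 * a)}
    with hW
  have hPU : P ⊆ M.exp '' U₁ := by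
    rintro p ⟨y, hy, T, hT, -, rfl⟩
    exact (M.mem_expSub hS).1 (mul_mem ((M.mem_expSub hS).2 (hF hy)) ((M.mem_expSub hS).2 (M.Sx_subset a r hT)))
  have h1 : {z | (∃ y ∈ F, y₀⁻¹ * z ∈ {y} * M.Sx U₁ a r * M.Qb a) ∧ ‖A.bb (y₀⁻¹ * z)‖ ≤ Real.exp s} ⊆ {y₀} * P * M.Qb a := by
    rintro z ⟨⟨y, hy, _, ⟨_, rfl, t, ht, rfl⟩, b, hb, e⟩, hz⟩
    obtain ⟨T, hT, rfl⟩ := M.Sx_subset a r ht
    obtain ⟨Y, hY, rfl⟩ := hF hy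
    refine ⟨y₀ * (M.exp Y * M.exp T), ⟨y₀, rfl, _, ⟨_, hy, T, ht, ?_, rfl⟩, rfl⟩, b, hb, ?_⟩
    · have e' : y₀⁻¹ * z = M.exp Y * (M.exp T * b) := by rw [← mul_assoc]; exact e.symm
      rw [e', A.bb_exp_mul, A.bb_exp_mul] at hz
      rw [A.bb_exp]
      calc ‖A.ℓ T + A.ℓ Y‖ = ‖(A.ℓ Y + (A.ℓ T + A.bb b)) - A.bb b‖ := by congr 1; ring
        _ ≤ _ := (norm_sub_le _ _).trans (add_le_add hz (H₁ a ha b hb).1)
    · have e' : M.exp Y * M.exp T * b = y₀⁻¹ * z := e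
      show y₀ * (M.exp Y * M.exp T) * b = z
      rw [mul_assoc, e', mul_inv_cancel_left]
  have h2 : P * M.exp '' (U₁ ∩ Metric.closedBall 0 1) ⊆ ⋃ y ∈ F, (fun g => y * g) '' (M.exp '' W y) := by
    rintro _ ⟨_, ⟨y, hy, T, hT, hTy, rfl⟩, _, ⟨X, hX, rfl⟩, rfl⟩
    have hX' : M.exp X ∈ M.Sx U₁ a r := M.Sx_mono U₁ (by linarith) le_rfl (M.unit_subset_Sx hU₁.le hr ⟨X, hX, rfl⟩)
    obtain ⟨Z, hZ, eZ⟩ := H₃ U₁ hS a r ha _ hT _ hX'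
    have hXq : M.exp X ∈ M.Qb a := (M.exp_mem_Qb (by linarith)).2
      ((mem_closedBall_zero_iff.1 hX.2).trans (Real.one_le_exp (by linarith)))
    have hℓ : A.ℓ Z = A.ℓ T + A.bb (M.exp X) := by rw [← A.bb_exp, eZ, A.bb_exp_mul]
    refine mem_iUnion₂.2 ⟨y, hy, M.exp Z, ⟨Z, ⟨hZ.2, ?_⟩, rfl⟩, ?_⟩
    · calc ‖A.ℓ Z - -A.bb y‖ = ‖(A.ℓ T + A.bb y) + A.bb (M.exp X)‖ := by rw [hℓ]; congr 1; ring
        _ ≤ Real.exp s + Real.exp (B₁ * a) + Real.exp (B₁ * a) := (norm_add_le _ _).trans (add_le_add hTy (H₁ a ha _ hXq).1)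
        _ ≤ _ := cvf_exp hs (by positivity) ha
    · show y * M.exp Z = y * M.exp T * M.exp X
      rw [eZ, mul_assoc]
  have h3 : M.hm U₁ (P * M.exp '' (U₁ ∩ Metric.closedBall 0 1)) ≤
      F.card * (ENNReal.ofReal (Real.exp (B₅ * (B₃ * a) + (s + B₁ * a + 2 * a) - r)) * hV U₁ (M.Gv r)) := by
    refine (measure_mono h2).trans ((measure_biUnion_finset_le _ _).trans ?_)
    rw [← nsmul_eq_mul]
    refine Finset.sum_le_card_nsmul _ _ _ fun y hy => ?_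
    rw [M.hm_image_left hS ((M.mem_expSub hS).2 (hF hy)), M.hm_exp]
    exact H₅ (B₃ * a) _ r _ (by nlinarith)
  calc _ ≤ volume ({y₀} * P * M.Qb a * M.ballR 1) := measure_mono (mul_subset_mul_right h1)
    _ ≤ _ := H₂ a ha y₀ P hPU
    _ ≤ ENNReal.ofReal (Real.exp (B₂ * a)) * (F.card *
        (ENNReal.ofReal (Real.exp (B₅ * (B₃ * a) + (s + B₁ * a + 2 * a) - r)) * hV U₁ (M.Gv r))) := by gcongr
    _ = _ := by
      rw [mul_left_comm (F.card : ℝ≥0∞), ← mul_assoc, ← ENNReal.ofReal_mul (Real.exp_pos _).le, ← Real.exp_add]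
      congr 3
      ring

end Model

end Crest.Agent.R182
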